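import Crest.Agent.X212.Cgr76.Mo
import Crest.Agent.X212.Grp76.Flo

/-! The action of the gauge group on the model on `Y`. -/

set_option autoImplicit false
set_option linter.unusedSectionVars false
noncomputable section
open scoped Manifold ContDiff Topology InnerProductSpace
open MeasureTheory Set Function Filter

namespace Crest.Agent.X212.Cgr76
open An An.Pre Sob92 Wz78 Std94 Cyf70 Nd18 Crt72 Grp76
open Eqv71 (ME BE Itw cj csL)

variable {E3 : Type} [NormedAddCommGroup E3] [NormedSpace ℝ E3] [FiniteDimensional ℝ E3]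
  [MeasurableSpace E3] [BorelSpace E3]
  {H3 : Type} [TopologicalSpace H3] {I3 : ModelWithCorners ℝ E3 H3} [I3.Boundaryless]
  {Y : Type} [TopologicalSpace Y] [ChartedSpace H3 Y] [IsManifold I3 ∞ Y] [T2Space Y]
  [MeasurableSpace Y] [BorelSpace Y] [SecondCountableTopology Y] [CompactSpace Y]
  {κ : Type} [Fintype κ] {lam : Type} [Fintype lam] {D : YD I3 Y κ lam} {β β' : YC Y κ lam}
  {w : Y → CL β.m.V β'.m.V} {ζ : Circle} {j k : ℕ}

/-! ### the action -/

section act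
variable (h : HY D) (hβ : D.Adm β) (hj : 7 ≤ j)

/-- the gauge algebra -/
abbrev gX := (hyp0 h hβ hj).gx (cjy h.ok hβ) (CR.triv Unit)

variable (D β j) in
def iU : CC D β j →L[ℝ] (qy D β 0).C D.F j Unit :=
  (ContinuousLinearMap.fst ℝ _ _).prod ((ContinuousLinearMap.snd ℝ _ _).prod 0)

variable (D β j) in
def pU : (qy D β 0).C D.F j Unit →L[ℝ] CC D β j :=
  (ContinuousLinearMap.id ℝ _).prodMap (ContinuousLinearMap.fst ℝ _ _)

variable (D β j) in
/-- the base spinor -/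
def s0 : CC D β j := (0, ofS D.F.toPre j _ β.Φ)

/-- the action -/
def ac (a : (gX h hβ hj).Gx) (v : CC D β j) : CC D β j :=
  pU D β j (a • iU D β j (v + s0 D β j)) - s0 D β j

/-- the automorphism -/
def uY (g : ((hyp0 h hβ hj).ga Unit).Gr) (y : Y) : CL β.m.V β.m.V :=
  β.m.p y + opL ((hyp0 h hβ hj).gv g y)

omit h hβ hj in
theorem iU_pU (x : (qy D β 0).C D.F j Unit) : iU D β j (pU D β j x) = x := rfl

omit h hβ hj in
theorem pU_iU (v : CC D β j) : pU D β j (iU D β j v) = v := rfl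

theorem iU_ac (a : (gX h hβ hj).Gx) (v : CC D β j) :
    iU D β j (ac h hβ hj a v + s0 D β j) = a • iU D β j (v + s0 D β j) := by
  rw [ac, sub_add_cancel, iU_pU]

/-- the gauge transformation -/
def gg (a : (gX h hβ hj).Gx) : ((hyp0 h hβ hj).ga Unit).Gr := a.g

theorem iU_ac' (a : (gX h hβ hj).Gx) (v : CC D β j) : gg h hβ hj a •
    (gX h hβ hj).ρ a.ζ (iU D β j (v + s0 D β j)) = iU D β j (ac h hβ hj a v + s0 D β j) :=
  (iU_ac h hβ hj a v).symm

theorem ac_one (v : CC D β j) : ac h hβ hj 1 v = v := by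
  rw [ac, one_smul, pU_iU, add_sub_cancel_right]

theorem ac_mul (a b : (gX h hβ hj).Gx) (v : CC D β j) :
    ac h hβ hj (a * b) v = ac h hβ hj a (ac h hβ hj b v) := by
  rw [ac, mul_smul, ← iU_ac, ← ac]

theorem continuous_ac : Continuous (uncurry (ac h hβ hj)) :=
  ((pU D β j).continuous.comp (continuous_fst.smul
    ((iU D β j).continuous.comp (continuous_snd.add continuous_const)))).sub continuous_const

theorem ac_aff (a : (gX h hβ hj).Gx) : ∃ A : CC D β j ≃L[ℝ] CC D β j,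
    ∀ v u, ac h hβ hj a (v + u) = ac h hβ hj a v + A u := by
  have : ∀ a, ∃ A : CC D β j →L[ℝ] CC D β j, ∀ v u, ac h hβ hj a (v + u) = ac h hβ hj a v + A u :=
    fun a => by
    obtain ⟨A, hA⟩ := (gX h hβ hj).aff a
    refine ⟨pU D β j ∘L A ∘L iU D β j, fun v u => ?_⟩
    rw [ac, ac, hA, hA (iU D β j _)]
    simp only [map_add, ContinuousLinearMap.comp_apply]
    abel
  choose A hA using this
  have e : ∀ a u, A a⁻¹ (A a u) = u := fun a u => by
    have := hA a⁻¹ (ac h hβ hj a 0) (A a u)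
    rwa [← hA, ← ac_mul, ← ac_mul, inv_mul_cancel, ac_one, ac_one, zero_add, zero_add, eq_comm] at this
  exact ⟨.equivOfInverse (A a) (A a⁻¹) (e a) fun u => by simpa using e a⁻¹ u, hA a⟩

omit hj in
theorem conn_iU (v : CC D β j) : (qy D β 0).conn D.F j (iU D β j (v + s0 D β j)) = cv D β v :=
  congrArg (fun t a y => cn β a y + opL (D.F.val j (pc D β) t y a)) (add_zero v.1)

include h hβ hj in
theorem val_s0 : D.F.val _ _ (s0 D β j).2 = β.Φ := val_ofS h (by omega) (sm_Φ hβ) (pv_Φ hβ)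

include h hβ hj in
theorem spin_iU (v : CC D β j) : (qy D β 0).spin D.F j (iU D β j (v + s0 D β j)) = sv D β v := by
  funext y
  show 0 + D.F.val _ _ (v.2 + (s0 D β j).2) y = _
  rw [zero_add, val_add, val_s0 h hβ hj, add_comm]; rfl

theorem itx_gv (g : ((hyp0 h hβ hj).ga Unit).Gr) (y : Y) :
    Itx β.m β.m y (opL ((hyp0 h hβ hj).gv g y)) :=
  (ph_iff (ok3 h.ok) (mok hβ) _).1 ((hyp0 h hβ hj).h_gv g y)

theorem trn_uY (g : ((hyp0 h hβ hj).ga Unit).Gr) (y : Y) :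
    trn (uY h hβ hj g y) = uY h hβ hj g⁻¹ y := by
  rw [uY, uY, QB.Hyp.gv_inv, opL_tA]
  exact (map_add ContinuousLinearMap.adjoint _ _).trans
    (congrArg (· + _) (Sym.trn ((mok hβ).psym y)))

theorem uY_inv (g : ((hyp0 h hβ hj).ga Unit).Gr) (y : Y) :
    uY h hβ hj g⁻¹ y * uY h hβ hj g y = β.m.p y := by
  have := congrArg opL ((hyp0 h hβ hj).nn_gv g y)
  simp only [map_add, opL_mA, map_zero, ← QB.Hyp.gv_inv] at this
  simp only [uY, mul_add, add_mul, (mok hβ).pidem, (itx_eq (itx_gv h hβ hj g⁻¹ y)).2.1,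
    (itx_eq (itx_gv h hβ hj g y)).1]
  linear_combination (norm := abel) this

theorem my_uY (g : ((hyp0 h hβ hj).ga Unit).Gr) (y : Y) : MY D β β y (uY h hβ hj g y) := by
  obtain ⟨-, -, h1, h2, h3⟩ := itx_eq (itx_gv h hβ hj g y)
  have e := ME.refl (mok hβ) y
  refine ⟨?_, ?_, ?_, fun b => ?_, fun s => ?_⟩
  · rw [trn_uY]; exact uY_inv h hβ hj g y
  · have := uY_inv h hβ hj g⁻¹ y
    rw [inv_inv] at this
    rw [trn_uY]; exact this
  · rw [uY, ContinuousLinearMap.add_comp, ContinuousLinearMap.comp_add, e.J]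
    exact congrArg _ h2
  · rw [uY, ContinuousLinearMap.add_comp, ContinuousLinearMap.comp_add, e.ρ, ((mok hβ).cl y).proj]
    exact congrArg _ (h1 b).symm
  · rw [uY, ContinuousLinearMap.add_comp, ContinuousLinearMap.comp_add, e.j, (mok hβ).jl]
    exact congrArg _ (h3 s).symm

theorem mo_ac (a : (gX h hβ hj).Gx) : Mo (ac h hβ hj a) (uY h hβ hj (gg h hβ hj a)) a.ζ := by
  have H := hyp0 h hβ hj
  have sp := (mok hβ).sp.mdifferentiable (by simp)
  refine ⟨fun y => (sp y).add (opL.mdifferentiableAt.comp y (H.md_gv (gg h hβ hj a) y)), my_uY h hβ hj (gg h hβ hj a),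
    fun v y b => ?_, fun v y => ?_⟩
  · have h1 := H.par_smul (gg h hβ hj a) ((gX h hβ hj).ρ a.ζ (iU D β j (v + s0 D β j))) y b
    rw [iU_ac', QB.Hyp.conn_ρ, conn_iU, conn_iU] at h1
    have h2 : D.F.D b β.m.p y + (cn β b y * β.m.p y - β.m.p y * cn β b y) = 0 :=
      (congrArg (· + _) (congrFun (D_some_fst D.F.toPre (mok hβ).sp b) (y, 0)).symm).trans
        (hβ.adm.conn.cc.par (some b) (y, 0))
    have h3 : Sob92.dv I3 (D.F.e b) (uY h hβ hj (gg h hβ hj a)) y =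
        D.F.D b β.m.p y + opL (D.F.D b (H.gv (gg h hβ hj a)) y) := by
      rw [QB.Hyp.gv, ← H.D_opL (gg h hβ hj a).v b y]
      exact dv_add (sp y) (opL.mdifferentiableAt.comp y (H.md_gv (gg h hβ hj a) y))
    have h4 := Wz78.g_p (pc_mem (H.proj v.1 y) b)
    have h5 := g_p' (mok hβ) (pc_mem (H.proj (ac h hβ hj a v).1 y) b)
    rw [h3]
    simp only [uY, cv, ← ContinuousLinearMap.mul_def] at h1 ⊢
    linear_combination (norm := noncomm_ring) h1 + h2 - h4 + h5
  · rw [← spin_iU h hβ hj, ← iU_ac', H.spin_smul, QB.Hyp.spin_ρ, spin_iU h hβ hj, uY,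
      _root_.add_apply, p_pv hβ (pv_sv h hβ H.k4 v y), QB.Hyp.opL_cs (cjy h.ok hβ) (H.h_gv _ _),
      ← Eqv71.csL_apply, ← Eqv71.csL_apply, ← Eqv71.csL_apply, map_add]

theorem ad_uY (g : ((hyp0 h hβ hj).ga Unit).Gr) (η : GG D β (j + 1)) : ∃ η' : GG D β (j + 1), ∀ y,
    D.F.val _ _ η' y = cj (uY h hβ hj g y) (D.F.val _ _ η y) := by
  have H := hyp0 h hβ hj
  let n := (qy D β 0).jH D.F j η + (qy D β 0).mH D.F j g.v ((qy D β 0).jH D.F j η)
  refine ⟨(qy D β 0).qH D.F j (n + (qy D β 0).mH D.F j n g⁻¹.v), fun y => ?_⟩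
  have h1 : D.F.val _ _ η y ∈ β.m.gS y := H.proj' η y ▸ pg_mem y _
  rw [H.val_q, ← pg_of_mem (my_mem (my_uY h hβ hj g y) h.ok hβ hβ h1)]
  refine congrArg _ (opL_inj ?_)
  rw [Eqv71.opL_cj, trn_uY]
  simp only [n, uY, val_add, Pi.add_apply, H.val_m, H.val_j, map_add, opL_mA, _root_.add_apply,
    ← ContinuousLinearMap.mul_def, QB.Hyp.gv]
  simp only [mul_add, add_mul, g_p' (mok hβ) h1, ← mul_assoc, Wz78.g_p h1]

theorem sm_uY {g : ((hyp0 h hβ hj).ga Unit).Gr} (hg : Sm I3 ((hyp0 h hβ hj).gv g)) :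
    Sm I3 (uY h hβ hj g) := (mok hβ).sp.add (opL.contMDiff.comp hg)

theorem ac_pt {a : (gX h hβ hj).Gx} (ha : Sm I3 ((hyp0 h hβ hj).gv (gg h hβ hj a))) (y : SP D β) :
    ∃ y', ac h hβ hj a (pt D β j y) = pt D β j y' := by
  have H := hyp0 h hβ hj
  have m := mo_ac h hβ hj a
  refine (exists_pt h H.k4 ?_ ?_).imp fun _ => Eq.symm
  · have := (H.nice_smul1 (v := (gX h hβ hj).ρ a.ζ (iU D β j (pt D β j y + s0 D β j)))
      (.of_hcs ha (.of_compactSpace _)) (.of_hcs (by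
        show Sm I3 (D.F.val _ _ ((pt D β j y).1 + 0))
        rw [add_zero, val_pt1 h H.k4]; exact y.1.2.1) (.of_compactSpace _))).sm
    rw [iU_ac'] at this
    exact (congrArg (fun t => Sm I3 (D.F.val _ _ t)) (add_zero _)).mp this
  · have : D.F.val _ _ (ac h hβ hj a (pt D β j y)).2 = fun x =>
        csL β.m.J a.ζ (uY h hβ hj (gg h hβ hj a) x (β.Φ x + y.2.1 x)) - β.Φ x := funext fun x => by
      have := m.sp (pt D β j y) x
      rw [sv, sv, val_pt2 h H.k4] at this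
      exact eq_sub_of_add_eq' this
    rw [this]
    exact ((csL _ _).contMDiff.comp ((sm_uY h hβ hj ha).clm_apply ((sm_Φ hβ).add y.2.2.1))).sub
      (sm_Φ hβ)

theorem sm_of_ac {a : (gX h hβ hj).Gx} {y y' : SP D β}
    (e : ac h hβ hj a (pt D β j y) = pt D β j y') : Sm I3 ((hyp0 h hβ hj).gv (gg h hβ hj a)) := by
  have H := hyp0 h hβ hj
  have s : ∀ y : SP D β, Sm I3 (D.F.val _ _ (iU D β j (pt D β j y + s0 D β j)).1) := fun y => by
    show Sm I3 (D.F.val _ _ ((pt D β j y).1 + 0))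
    rw [add_zero, val_pt1 h H.k4]; exact y.1.2.1
  refine H.sm_gv (v := (gX h hβ hj).ρ a.ζ (iU D β j (pt D β j y + s0 D β j))) (s y) ?_
  rw [iU_ac', e]
  exact s y'

theorem pU_d (v : CC D β j) (q : GG D β (j + 1) × ℝ) :
    pU D β j ((gX h hβ hj).d (iU D β j (v + s0 D β j)) q) =
      Crt72.dv D β j v q.1 + q.2 • jv D β j v := by
  have H := hyp0 h hβ hj
  refine cc_ext h H.k4 (fun y a => ?_) fun y => ?_
  · show D.F.val j (pc D β) (((H.ga Unit).d (iU D β j (v + s0 D β j)) q.1).1 + q.2 • 0) y a =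
      D.F.val j (pc D β) ((Crt72.dv D β j v q.1).1 + q.2 • 0) y a
    rw [smul_zero, add_zero, add_zero, val_dv1 h hβ hj, ← conn_iU]
    exact H.val_d1 _ _ _ _
  · show D.F.val _ _ (((H.ga Unit).d _ q.1).2.1 + q.2 • (H.crS (cjy h.ok hβ)).J _) y =
      D.F.val _ _ ((Crt72.dv D β j v q.1).2 + q.2 • (jv D β j v).2) y
    simp only [val_add, val_smul, Pi.add_apply, Pi.smul_apply]
    rw [H.val_d2, spin_iU h hβ hj, val_dv2 h hβ hj, H.val_crS_J, val_jv2 h hβ H.k4,
      ← spin_iU h hβ hj]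
    exact congrArg₂ (· + q.2 • β.m.J ·) rfl (zero_add _).symm

theorem strict_ac (v : CC D β j) : HasStrictFDerivAt
    (fun q : (GG D β (j + 1) × ℝ) × CC D β j => ac h hβ hj ((gX h hβ hj).e q.1) q.2)
    (((Crt72.dv D β j v).coprod ((ContinuousLinearMap.id ℝ ℝ).smulRight (jv D β j v))).coprod
      (ContinuousLinearMap.id ℝ _)) (0, v) := by
  have h1 := (hasStrictFDerivAt_fst (𝕜 := ℝ) (p := ((0, v) : (GG D β (j + 1) × ℝ) × CC D β j))).prodMk
    ((iU D β j).hasStrictFDerivAt.comp _ ((hasStrictFDerivAt_snd (𝕜 := ℝ)).add_const (s0 D β j)))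
  have h2 := ((pU D β j).hasStrictFDerivAt.comp _ (HasStrictFDerivAt.comp (0, v)
    ((gX h hβ hj).hasStrict_act (iU D β j (v + s0 D β j))) h1)).sub_const (s0 D β j)
  refine h2.congr_fderiv (ContinuousLinearMap.ext fun q => ?_)
  exact (map_add (pU D β j) _ _).trans (congrArg (· + q.2) (pU_d h hβ hj v q.1))

end act

end Crest.Agent.X212.Cgr76
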