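import Crest.Agent.X212.Cgr76.Rep
import Crest.Agent.X212.Cgr76.Act
import Crest.Agent.X212.Grp76.Dns

/-! CRIT-GRP: the group axioms of the model on `Y`. -/

set_option autoImplicit false
set_option linter.unusedSectionVars false
noncomputable section
open scoped Manifold ContDiff Topology InnerProductSpace
open MeasureTheory Set Function Filter

namespace Crest.Agent.X212.Cgr76
open An An.Pre Sob92 Wz78 Std94 Cyf70 Nd18 Crt72 Grp76
open Eqv71 (ME BE Itw cj csL)

variable {E3 : Type} [NormedAddCommGroup E3] [NormedSpace ℝ E3] [FiniteDimensional ℝ E3]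
  [MeasurableSpace E3] [BorelSpace E3]
  {H3 : Type} [TopologicalSpace H3] {I3 : ModelWithCorners ℝ E3 H3} [I3.Boundaryless]
  {Y : Type} [TopologicalSpace Y] [ChartedSpace H3 Y] [IsManifold I3 ∞ Y] [T2Space Y]
  [MeasurableSpace Y] [BorelSpace Y] [SecondCountableTopology Y] [CompactSpace Y]
  {κ : Type} [Fintype κ] {lam : Type} [Fintype lam] {D : YD I3 Y κ lam} {β β' : YC Y κ lam}
  {w : Y → CL β.m.V β'.m.V} {ζ : Circle} {j k : ℕ}

theorem Hy.iv_ac0 (h : Hy D) (hβ : D.Adm β) (hk : 7 ≤ k) (hj : 7 ≤ k + 1) (y : SP D β)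
    (a : (gX h.toHY hβ hj).Gx) : Iv (ac h.toHY hβ hj a) a.ζ (pt D β (k + 1) y) := by
  have hd : Dense {a : (gX h.toHY hβ hj).Gx |
      Sm I3 ((hyp0 h.toHY hβ hj).gv (gg h.toHY hβ hj a))} :=
    ((hyp0 h.toHY hβ hj).dense_sm.preimage (isOpenMap_fst (Y := Circle))).mono fun a ha => ha.1
  have hc := h.closed hβ hk hβ (T := ac h.toHY hβ hj) (continuous_ac h.toHY hβ hj)
    (ζ := fun a => a.ζ) continuous_snd (v := fun _ => pt D β (k + 1) y) continuous_const
  refine closure_minimal (fun a ha => ?_) hc (hd a)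
  obtain ⟨y', e⟩ := ac_pt h.toHY hβ hj ha y
  exact h.iv_pt hβ hk hβ (mo_ac h.toHY hβ hj a) (sm_uY h.toHY hβ hj ha) e

theorem Hy.iv_ac (h : Hy D) (hβ : D.Adm β) (hk : 7 ≤ k) (hj : 7 ≤ k + 1) (a : (gX h.toHY hβ hj).Gx)
    (v : CC D β (k + 1)) : Iv (ac h.toHY hβ hj a) a.ζ v := by
  have hc := h.closed hβ hk hβ (T := fun _ : CC D β (k + 1) => ac h.toHY hβ hj a)
    (((continuous_ac h.toHY hβ hj).uncurry_left a).comp continuous_snd)
    (ζ := fun _ => a.ζ) continuous_const (v := id) continuous_id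
  exact dense_pt.induction_on v hc fun y => h.iv_ac0 hβ hk hj y a

theorem exp_sq (t : ℝ) : ((Circle.exp t : Circle) : ℂ) ^ 2 = Complex.exp (2 * t * Complex.I) := by
  rw [Circle.coe_exp, ← Complex.exp_nat_mul]
  congr 1
  push_cast
  ring

theorem sm_jv (h : HY D) (hβ : D.Adm β) (hj : 4 ≤ j) : ∃ y, pt D β j y = jv D β j 0 := by
  refine exists_pt h hj ?_ ?_
  · show Sm I3 (D.F.val _ _ 0)
    rw [val_zero]; exact contMDiff_const
  · have : D.F.val _ _ (jv D β j 0).2 = fun y => β.m.J (β.Φ y) := funext fun y => by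
      rw [val_jv2 h hβ hj, sv, Prod.snd_zero, val_zero, Pi.zero_apply, add_zero]
    rw [this]
    exact β.m.J.contMDiff.comp (sm_Φ hβ)

variable (D) in
/-- **CRIT-GRP.** -/
theorem grpStmt : GrpStmt D := fun h0 h1 h2 h3 h4 h5 k hk => by
  have h : Hy D := ⟨h0, h1, h2, h3, h4, h5⟩
  have hj : 7 ≤ k + 1 := by omega
  have tr : ∀ {x y z : YC Y κ lam}, D.Adm x → D.Adm y → D.Adm z → D.Eqv x y → D.Eqv y z →
      D.Eqv x z := fun a b c => Eqv71.IsoOn.trans h.ok.B h.ok.G isOpen_univ a.adm b.adm c.adm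
  let act : ActT D k := fun o η => ac h0 o.2 hj ((gX h0 o.2 hj).e η)
  refine ⟨act, fun sf => ?_⟩
  have mo := fun (o : XY D) η => (ac_aff h0 o.2 hj ((gX h0 o.2 hj).e η)).imp fun A hA =>
    mor_of h0 o.2 o.2 hk act sf (mo_ac h0 o.2 hj _) A hA (h.iv_ac o.2 hk hj _) (ad_uY h0 o.2 hj _)
      fun η' => by simpa only [trn_uY] using ad_uY h0 o.2 hj _ η'
  exact
    { refl := fun x => Eqv71.isoOn_refl h.ok.B h.ok.G isOpen_univ x.2.adm
      symm := fun x y => Eqv71.IsoOn.symm h.ok.B h.ok.G isOpen_univ x.2.adm y.2.adm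
      trans := fun x y z => tr x.2 y.2 z.2
      SI := fun x y e hx hy => hx (lin_of_iso h.ok.B h.ok.G y.2.adm x.2.adm
        (Eqv71.IsoOn.symm h.ok.B h.ok.G isOpen_univ x.2.adm y.2.adm e) hy)
      cd := fun o => continuous_const.add ((ContinuousLinearMap.prodₗᵢ ℝ).continuous.comp
        (((ContinuousLinearMap.continuous _).comp continuous_fst).prodMk
          ((ContinuousLinearMap.continuous _).comp continuous_snd)))
      cJ := fun o => continuous_const.prodMk
        (((ContinuousLinearMap.continuous _).comp continuous_snd).add continuous_const)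
      act0 := fun o v => (congrArg (ac h0 o.2 hj · v) (gX h0 o.2 hj).e_zero).trans (ac_one _ _ _ v)
      strict := fun o => strict_ac h0 o.2 hj
      mor := fun o η => (mo o η).imp fun _ => And.left
      ph := fun o η => exp_sq η.2 ▸ (mo o η).choose_spec.2
      rep0 := fun x y => ⟨fun ⟨z, e, i⟩ => by
        obtain rfl : z = 0 := pt_inj h0 (by omega) (e.trans (map_zero _).symm)
        rwa [cf_zero] at i, fun e => ⟨0, map_zero _, by rwa [cf_zero]⟩⟩
      rep := fun o v x ⟨y, e, i⟩ => e ▸ h.rep x.2 o.2 hk act sf y i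
      orb := fun o v x η ⟨y, e, i⟩ e' => by
        have e2 := (congrArg (act o η) e).trans (e'.trans (map_zero (pt D o.1 (k + 1))).symm)
        have := (mo_ac h0 o.2 hj _).yiso h0 (by omega) (sm_uY h0 o.2 hj (sm_of_ac h0 o.2 hj e2))
          (h1 _ o.2 _) (h1 _ o.2 _) e2
        have h6 := tr x.2 (h1 _ o.2 _) (h1 _ o.2 _) i ⟨_, _, this⟩
        rwa [cf_zero] at h6
      smoJ := fun o => sm_jv h0 o.2 (by omega) }

end Crest.Agent.X212.Cgr76
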