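import Crest.Agent.X212.Crt72.Props
import Crest.Agent.X212.Grp76.Md
import Crest.Agent.X212.Grp76.Est
import Crest.Agent.X212.Eqv71.Grp
import Crest.Agent.X212.Cht98.Br

/-! The model on `Y`: pointwise descriptions. -/

set_option autoImplicit false
set_option linter.unusedSectionVars false
noncomputable section
open scoped Manifold ContDiff Topology InnerProductSpace
open MeasureTheory Set Function Filter

namespace Crest.Agent.X212.Cgr76
open An An.Pre Sob92 Wz78 Std94 Cyf70 Nd18 Crt72 Grp76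

section gen
variable {E : Type} [NormedAddCommGroup E] [NormedSpace ℝ E] [FiniteDimensional ℝ E]
  [MeasurableSpace E] [BorelSpace E]
  {HM : Type} [TopologicalSpace HM] {I : ModelWithCorners ℝ E HM} [I.Boundaryless]
  {M : Type} [TopologicalSpace M] [ChartedSpace HM M] [IsManifold I ∞ M]
  [MeasurableSpace M] [T2Space M] [BorelSpace M] [SecondCountableTopology M]
  {ι : Type} [Fintype ι] {V W : Type} [NormedAddCommGroup V] [InnerProductSpace ℝ V]
  [CompleteSpace V] [NormedAddCommGroup W] [InnerProductSpace ℝ W] [CompleteSpace W]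
  {F : Fr I M ι} {S : ℝ} {k j : ℕ} {p : M → V →L[ℝ] V} {q : M → W →L[ℝ] W}

theorem sm_fm {α : Type} [Fintype α] {f : M → Fm α V} (h : ∀ a, Sm I fun x => f x a) : Sm I f := by
  have : f = fun x => ∑ a, ij V a (f x a) := funext fun x => PiLp.ext fun a => (sum_ij _ a).symm
  rw [this]
  exact contMDiff_finset_sum fun a _ => (ij V a).contMDiff.comp (h a)

theorem exists_toH [CompactSpace M] (hS : Sup F.toPre S) (hk : 4 ≤ k) {h : F.H k p}
    (hs : Sm I (F.val k p h)) : ∃ u : Sec I p, F.toH k p u = h :=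
  ⟨⟨_, hs, .of_compactSpace _, val_proj hS hk h⟩, val_injective hS hk (val_toH hS hk _)⟩

theorem lift_eq [CompactSpace M] (hS : Sup F.toPre S) (hj : 4 ≤ j) {A : F.H k p →L[ℝ] F.H j q}
    {T : (M → V) → M → W} (h : ∀ u : Sec I p, F.val j q (A (F.toH k p u)) = T u.1)
    (hs : ∀ u : Sec I p, Sm I (T u.1)) : F.lift k j p q T = A :=
  RepT.liftT_eq fun u => by
    obtain ⟨v, hv⟩ := exists_toH hS hj (h u ▸ hs u)
    exact ⟨v, by rw [← h, ← hv, val_toH hS hj], hv.symm⟩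

theorem inner_incl (hS : Sup F.toPre S) (hk : 4 ≤ k) (hj : 4 ≤ j) (h : F.H k p) (h' : F.H j p) :
    ⟪F.incl k 0 p h, F.incl j 0 p h'⟫_ℝ = ∫ x, ⟪F.val k p h x, F.val j p h' x⟫_ℝ ∂F.μ := by
  rw [← inner_toL2, toL2_incl k.zero_le, toL2_incl j.zero_le, L2.inner_def]
  refine integral_congr_ae ?_
  filter_upwards [val_ae hS hk h, val_ae hS hj h'] with x h1 h2
  rw [h1, h2]

end gen

variable {E3 : Type} [NormedAddCommGroup E3] [NormedSpace ℝ E3] [FiniteDimensional ℝ E3]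
  [MeasurableSpace E3] [BorelSpace E3]
  {H3 : Type} [TopologicalSpace H3] {I3 : ModelWithCorners ℝ E3 H3} [I3.Boundaryless]
  {Y : Type} [TopologicalSpace Y] [ChartedSpace H3 Y] [IsManifold I3 ∞ Y] [T2Space Y]
  [MeasurableSpace Y] [BorelSpace Y] [SecondCountableTopology Y] [CompactSpace Y]
  {κ : Type} [Fintype κ] {lam : Type} [Fintype lam] (D : YD I3 Y κ lam)

/-- the background restricted to `Y` -/
def B3 : Base Y (Option κ) lam := ⟨fun a b y => D.B.P a b (y, 0), D.o, D.l, D.il⟩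

theorem sm_sl {N : Type} [NormedAddCommGroup N] [NormedSpace ℝ N] {f : Y × ℝ → N}
    (h : Sm (IC I3) f) : Sm I3 fun y => f (y, 0) :=
  h.comp (contMDiff_id.prodMk contMDiff_const)

theorem P_t (a b : Option κ) (x : Y × ℝ) : D.B.P a b x = (B3 D).P a b x.1 := by
  cases a <;> cases b <;> rfl

variable {D} {β β' : YC Y κ lam}

theorem ok3 (h : D.OK) : (B3 D).OK I3 :=
  ⟨fun a b => sm_sl (h.B.sP a b), fun a b c d => sm_sl (h.B.so a b c d), sm_sl h.B.sl,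
    fun y => h.B.pr (y, 0), fun y => h.B.rk (y, 0), fun a b c d y => h.B.o12 a b c d (y, 0),
    fun a b c d y => h.B.o23 a b c d (y, 0), fun a b c d y => h.B.o34 a b c d (y, 0),
    fun a b c d y => h.B.oP a b c d (y, 0), fun y => h.B.onm (y, 0), fun y => h.B.lsym (y, 0),
    fun y => h.B.lidem (y, 0), fun y => h.B.lrk (y, 0), h.B.ilsq, h.B.ilsk, fun y => h.B.ill (y, 0)⟩

theorem mok (h : D.Adm β) : β.m.OK I3 (B3 D) :=
  have H := h.adm.ok
  ⟨H.Jsq, H.Jsk, sm_sl H.sp, fun a => sm_sl (H.sρ a), sm_sl H.sj, fun y => H.psym (y, 0),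
    fun y => H.pidem (y, 0), fun y => H.prk (y, 0), fun y => H.Jp (y, 0), fun y => H.cl (y, 0),
    fun a y => H.ρsk a (y, 0), fun a y => H.Jρ a (y, 0), fun y => H.jsym (y, 0),
    fun y => H.jJ (y, 0), fun y => H.jil (y, 0), fun y => H.jl (y, 0), fun y => H.jsq (y, 0),
    fun y => H.pj (y, 0), fun a y => H.jρ a (y, 0)⟩

theorem pv_eq (y : Y) : pv D β y = β.m.pp (B3 D) y := rfl

theorem sm_cn (h : D.Adm β) (a : κ) : Sm I3 (cn β a) := sm_sl fun x => h.adm.conn.cc.sm (some a) x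

theorem skw_cn (h : D.Adm β) (a : κ) (y : Y) : Skw (cn β a y) := h.adm.conn.sk (some a) (y, 0)

theorem J_cn (h : D.Adm β) (a : κ) (y : Y) : β.m.J * cn β a y = cn β a y * β.m.J :=
  h.adm.conn.J (some a) (y, 0)

theorem P_cn (h : D.Adm β) (a : κ) (y : Y) : ∑ b, D.F.P a b y • cn β b y = cn β a y := by
  have := h.adm.conn.cc.proj (some a) (y, 0)
  rw [Fintype.sum_option] at this
  exact (zero_add _).symm.trans ((congrArg (· + _) (zero_smul ℝ _).symm).trans this)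

theorem sm_Φ (h : D.Adm β) : Sm I3 β.Φ := sm_sl h.adm.sm

theorem pv_Φ (h : D.Adm β) (y : Y) : pv D β y (β.Φ y) = β.Φ y := h.adm.pos (y, 0)

theorem exists_sup (h : HY D) : ∃ S, Sup D.F.toPre S :=
  ⟨_, Sup.of_tame (Cht98.exists_tame D.F (by rw [h.dim]; norm_num)).choose_spec⟩

variable (D β) in
/-- the gauge data on `Y` -/
abbrev qy (Φ : Y → β.m.V) : QB Y κ (Fin β.m.N) :=
  ⟨Grp76.ph β.m, β.m.pg, pc D β, pv D β, cn β, Φ⟩

section ok
variable (h : D.OK) (hβ : D.Adm β)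
include h hβ

theorem sm_pgY : Sm I3 β.m.pg := sm_pg (ok3 h) (mok hβ)

theorem sm_pv : Sm I3 (pv D β) := funext (pv_eq (D := D) (β := β)) ▸ sm_pp (ok3 h) (mok hβ)

theorem sm_pc : Sm I3 (pc D β) := Kl.idx (K := smAll I3) D.F.P_sm (sm_pgY h hβ)

theorem pv_pv (y : Y) (v : β.m.V) : pv D β y (pv D β y v) = pv D β y v := by
  rw [← mul_apply_eq_comp, pv_eq, pp_pp (ok3 h) (pmx (mok hβ) y)]

omit h hβ in
theorem pc_iff (y : Y) (η : Fm κ β.m.A) : pc D β y η = η ↔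
    (∀ a, β.m.pg y (η a) = η a) ∧ ∀ a, ∑ b, D.F.P a b y • η b = η a := idx_iff (Wz78.pg_pg y) η

omit h hβ in
theorem pc_pc (y : Y) (η : Fm κ β.m.A) : pc D β y (pc D β y η) = pc D β y η :=
  idx_idem (frPr D.F y).idem (Wz78.pg_pg y) η

omit h hβ in
theorem pc_mem {y : Y} {η : Fm κ β.m.A} (e : pc D β y η = η) (a : κ) : η a ∈ β.m.gS y :=
  ((pc_iff y η).1 e).1 a ▸ pg_mem y _

omit h in
theorem p_pv {y : Y} {v : β.m.V} (e : pv D β y v = v) : β.m.p y v = v :=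
  e ▸ Eqv71.p_pp (mok hβ) y v

omit h hβ in
theorem pv_itx {y : Y} {S : En (Fin β.m.N)} {v : β.m.V} (hS : Itx β.m β.m y S)
    (e : pv D β y v = v) : pv D β y (S v) = S v := by
  rw [pv_eq, ← mul_apply_eq_comp, ← pp_comm ((itx_eq hS).2.1.trans (itx_eq hS).1.symm)
    (itx_eq hS).2.2.1, mul_apply_eq_comp, ← pv_eq, e]

omit h in
theorem pv_J {y : Y} {v : β.m.V} (e : pv D β y v = v) : pv D β y (β.m.J v) = β.m.J v := by
  rw [pv_eq, ← mul_apply_eq_comp, ← J_pp (pmx (mok hβ) y), mul_apply_eq_comp, ← pv_eq, e]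

theorem qok {Φ : Y → β.m.V} (hs : Sm I3 Φ) (hΦ : ∀ y, pv D β y (Φ y) = Φ y) :
    (qy D β Φ).OK D.F where
  cP a b := Cb_of_compact (D.F.P_sm a b)
  ch := Cb_add (Cb_of_compact (sm_pgY h hβ))
    (Cb_smul (Cb_const _) (Cb_rk (Cb_clm hsL (Cb_of_compact (mok hβ).sp))))
  cg := Cb_of_compact (sm_pgY h hβ)
  cc := Cb_of_compact (sm_pc h hβ)
  cW a := Cb_of_compact (sm_cn hβ a)
  cΦ := Cb_of_compact hs
  hh _ := ph_ph (ok3 h) (mok hβ)
  gg := Wz78.pg_pg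
  cc' := pc_pc
  mul x ξ η h1 h2 := by
    rw [ph_iff (ok3 h) (mok hβ)] at h1 h2 ⊢
    exact opL_mA ξ η ▸ itx_mul (ok3 h) (mok hβ) h1 h2
  tr x ξ h1 := by
    rw [ph_iff (ok3 h) (mok hβ)] at h1 ⊢
    exact opL_tA ξ ▸ itx_trn (ok3 h) (mok hβ) h1
  nrm x ξ h1 := opL_inj (by
    have := itx_norm (ok3 h) (pmx (mok hβ) x) (pmx (mok hβ) x) ((ph_iff (ok3 h) (mok hβ) ξ).1 h1)
    rw [opL_mA, opL_mA, opL_tA]
    exact this.2.trans this.1.symm)
  g_iff _ := pg_iff (ok3 h) (mok hβ)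
  c_iff := pc_iff
  par u hu h1 a x := by
    rw [ph_iff (ok3 h) (mok hβ)]
    have hU : MDifferentiable (IC I3) 𝓘(ℝ, En (Fin β.m.N)) fun z : Y × ℝ => opL (u z.1) :=
      fun z => opL.mdifferentiableAt.comp z ((hu z.1).comp z mdifferentiableAt_fst)
    have h2 := itx_nab hβ.adm.ok hβ.adm.conn hU
      (fun y => (ph_iff (ok3 h) (mok hβ) _).1 (h1 y.1)) (some a) (x, 0)
    have h3 : Sob92.dv (IC I3) (D.G.F.e (some a)) (fun z : Y × ℝ => opL (u z.1)) (x, 0) =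
        opL (Sob92.dv I3 (D.F.e a) u x) := (dv_some (hU _) a).trans (dv_clm opL (hu x))
    rw [nab, map_add, QB.ad, opL_adc, ← h3]
    exact h2
  sk := skw_cn hβ
  WP := P_cn hβ
  act x ξ v h1 := pv_itx ((ph_iff (ok3 h) (mok hβ) ξ).1 h1)
  sΦ := hΦ

theorem cjy : (qy D β 0).CJ β.m.J :=
  ⟨(mok hβ).Jsq, fun _ _ => pv_J hβ,
    fun _ ξ e => (itx_eq ((ph_iff (ok3 h) (mok hβ) ξ).1 e)).2.2.2.1.symm, rfl⟩

end ok

/-! ### the points of the model -/

section pts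
variable {j : ℕ}

variable (D β) in
/-- the connection of a point -/
def cv (v : CC D β j) : κ → Y → En (Fin β.m.N) := fun a y => cn β a y + opL (D.F.val _ _ v.1 y a)

variable (D β) in
/-- the spinor of a point -/
def sv (v : CC D β j) : Y → β.m.V := fun y => β.Φ y + D.F.val _ _ v.2 y

variable (h : HY D)
include h

theorem hS : Sup D.F.toPre (exists_sup h).choose := (exists_sup h).choose_spec

theorem cc_ext (hj : 4 ≤ j) {v w : CC D β j} (h1 : ∀ y a, D.F.val _ _ v.1 y a = D.F.val _ _ w.1 y a)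
    (h2 : ∀ y, D.F.val _ _ v.2 y = D.F.val _ _ w.2 y) : v = w :=
  Prod.ext (val_injective (hS h) hj (funext fun y => PiLp.ext (h1 y)))
    (val_injective (hS h) hj (funext h2))

theorem val_pt1 (hj : 4 ≤ j) (y : SP D β) : D.F.val _ _ (pt D β j y).1 = y.1.1 := val_toH (hS h) hj _

theorem val_pt2 (hj : 4 ≤ j) (y : SP D β) : D.F.val _ _ (pt D β j y).2 = y.2.1 := val_toH (hS h) hj _

theorem cv_pt (hj : 4 ≤ j) (y : SP D β) : cv D β (pt D β j y) = cn (cf y) := by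
  unfold cv; rw [val_pt1 h hj]; rfl

theorem sv_pt (hj : 4 ≤ j) (y : SP D β) : sv D β (pt D β j y) = (cf y).Φ := by
  unfold sv; rw [val_pt2 h hj]; rfl

theorem exists_pt (hj : 4 ≤ j) {v : CC D β j} (h1 : Sm I3 (D.F.val _ _ v.1))
    (h2 : Sm I3 (D.F.val _ _ v.2)) : ∃ y, pt D β j y = v :=
  let ⟨a, ha⟩ := exists_toH (hS h) hj h1
  let ⟨b, hb⟩ := exists_toH (hS h) hj h2
  ⟨(a, b), Prod.ext ha hb⟩

theorem pt_inj (hj : 4 ≤ j) : Injective (pt D β j) := fun y z e =>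
  Prod.ext (Subtype.ext (by rw [← val_pt1 h hj, e, val_pt1 h hj]))
    (Subtype.ext (by rw [← val_pt2 h hj, e, val_pt2 h hj]))

omit h in
theorem dense_pt : DenseRange (pt D β j) := (D.F.dense_toH _ _).prodMap (D.F.dense_toH _ _)

theorem bb_eq {l : ℕ} (hj : 4 ≤ j) (hl : 4 ≤ l) (e : CC D β j) (u : CC D β l) : bb D β j l e u =
    ∫ y, ⟪D.F.val _ _ e.1 y, D.F.val _ _ u.1 y⟫_ℝ ∂D.F.μ +
      ∫ y, ⟪D.F.val _ _ e.2 y, D.F.val _ _ u.2 y⟫_ℝ ∂D.F.μ := by
  rw [← inner_incl (hS h) hj hl, ← inner_incl (hS h) hj hl]; rfl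

theorem val_ofS {V : Type} [NormedAddCommGroup V] [InnerProductSpace ℝ V] [CompleteSpace V]
    (hj : 4 ≤ j) {p : Y → V →L[ℝ] V} {u : Y → V} (h1 : Sm I3 u) (h2 : ∀ y, p y (u y) = u y) :
    D.F.val j p (ofS D.F.toPre j p u) = u := by
  rw [ofS, dif_pos ⟨h1, .of_compactSpace _, h2⟩, val_toH (hS h) hj]

variable (hβ : D.Adm β)
include hβ

theorem hyp {Φ : Y → β.m.V} (hs : Sm I3 Φ) (hΦ : ∀ y, pv D β y (Φ y) = Φ y) (hj : 7 ≤ j) :
    (qy D β Φ).Hyp D.F j := ⟨qok h.ok hβ hs hΦ, exists_sup h, hj⟩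

theorem hyp0 (hj : 7 ≤ j) : (qy D β 0).Hyp D.F j :=
  hyp h hβ contMDiff_const (fun _ => map_zero _) hj

theorem skw_cv (hj : 4 ≤ j) (v : CC D β j) (a : κ) (y : Y) : Skw (cv D β v a y) := fun s t => by
  have := (pc_mem (val_proj (hS h) hj v.1 y) a).1 s t
  simp only [cv, _root_.add_apply, inner_add_left, inner_add_right, skw_cn hβ a y s t, this]
  ring

theorem pv_sv (hj : 4 ≤ j) (v : CC D β j) (y : Y) : pv D β y (sv D β v y) = sv D β v y := by
  rw [sv, map_add, pv_Φ hβ, val_proj (hS h) hj]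

theorem val_jv2 (hj : 4 ≤ j) (v : CC D β j) (y : Y) :
    D.F.val _ _ (jv D β j v).2 y = β.m.J (sv D β v y) := by
  rw [jv, val_add, Pi.add_apply, val_mulH (p := pv D β) (q := pv D β) (hS h) hj (Cb_const _)
    fun _ _ => pv_J hβ, val_ofS (p := pv D β) (u := fun y => β.m.J (β.Φ y)) h hj
    (β.m.J.contMDiff.comp (sm_Φ hβ)) fun y => pv_J hβ (pv_Φ hβ y), sv, map_add, add_comm]

theorem m_dgp {y : Y} {ξ : β.m.A} {v : β.m.V} (h1 : β.m.pg y ξ = ξ) (h2 : pv D β y v = v) :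
    pv D β y (opL ξ v) = opL ξ v :=
  pv_itx ((ph_iff (ok3 h.ok) (mok hβ) ξ).1 ((pg_iff (ok3 h.ok) (mok hβ) ξ).1 h1).1) h2

theorem val_dgp (hj : 4 ≤ j) (ξ : GG D β (j + 1)) (y : Y) :
    D.F.val _ _ (D.F.lift (j + 1) j _ (pv D β) (dgp β) ξ) y = opL (D.F.val _ _ ξ y) (β.Φ y) := by
  have h1 := RepT_comp (rep_mulH (F := D.F.toPre) (k := j) (p := β.m.pg) (q := pv D β)
    (f := fun y => evA (β.Φ y)) (Cb_clm (ContinuousLinearMap.flip opL) (Cb_of_compact (sm_Φ hβ)))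
    fun y ξ e => m_dgp h hβ e (pv_Φ hβ y)) (rep_incl j.le_succ)
  rw [show D.F.lift (j + 1) j _ (pv D β) (dgp β) = _ from h1.liftT_eq]
  exact val_rep (g := fun y ξ => opL ξ (β.Φ y)) (hS h) (by omega) hj h1 (fun _ => by fun_prop) ξ y

theorem val_dga (hj : 7 ≤ j) (ξ : GG D β (j + 1)) :
    D.F.val _ _ (D.F.lift (j + 1) j _ (pc D β) (dga D β) ξ) = dga D β (D.F.val _ _ ξ) := by
  have H := hyp0 h hβ hj
  have e : ∀ ξ, D.F.val _ _ ((ContinuousLinearMap.fst ℝ _ _ ∘L (H.ga Unit).d 0) ξ) =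
      dga D β (D.F.val _ _ ξ) := fun ξ => funext fun y => PiLp.ext fun a => by
    refine (H.val_d1 0 ξ y a).trans ?_
    simp only [QB.conn, Prod.fst_zero, val_zero, Pi.zero_apply, PiLp.zero_apply, map_zero, add_zero]
    rfl
  rw [lift_eq (hS h) H.k4 (fun u => by rw [e, val_toH (hS h) H.k5]) fun u => sm_fm fun a =>
    ((D.F.sm_D u.2.1 a).add ((adcL.contMDiff.comp (sm_cn hβ a)).clm_apply u.2.1)).neg, e]

theorem val_dv1 (hj : 7 ≤ j) (v : CC D β j) (ξ : GG D β (j + 1)) (y : Y) (a : κ) :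
    D.F.val _ _ (Crt72.dv D β j v ξ).1 y a =
      -nab I3 D.F.e (fun a y => adc (cv D β v a y)) a (D.F.val _ _ ξ) y := by
  have e : (fun (α : Y → Fm κ β.m.A) (ξ : Y → β.m.A) y =>
      WithLp.toLp 2 fun a => -adc (opL (α y a)) (ξ y)) =
      fun α ξ y => (onF κ (mA - mO)).flip (α y) (ξ y) := by
    funext α ξ y
    ext1 a
    simp [adc_opL]
  have hm : Maps₂ (pc D β) β.m.pg (pc D β) fun _ => (onF κ (mA - mO)).flip := fun y α ξ h1 h2 => by
    rw [pc_iff]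
    refine ⟨fun a => pg_of_mem ?_, fun a => ?_⟩
    · simpa [adc_opL] using adc_mem (h2 ▸ pg_mem y ξ) (pc_mem h1 a)
    · simp only [ContinuousLinearMap.flip_apply, onF_apply, ← map_smul, ← map_sum,
        ((pc_iff y α).1 h1).2]
  show D.F.val j (pc D β) ((1 : ℝ) • D.F.lift (j + 1) j _ (pc D β) (dga D β) ξ + _) y a = _
  rw [one_smul, val_add, Pi.add_apply, PiLp.add_apply, val_dga h hβ hj, e]
  refine (congrArg (_ + ·) (congrArg (· a) (val_bilH (hS h) (Lev.right (by omega) j.le_succ)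
    (by omega) (Cb_const _) hm v.1 ξ y))).trans ?_
  simp only [dga, nab, cv, an, Md.adW, cn, ← adcL_apply, map_add, _root_.add_apply]
  simp [adcL_apply, adc_opL]
  abel

theorem val_dv2 (hj : 7 ≤ j) (v : CC D β j) (ξ : GG D β (j + 1)) (y : Y) :
    D.F.val _ _ (Crt72.dv D β j v ξ).2 y = opL (D.F.val _ _ ξ y) (sv D β v y) := by
  show D.F.val _ _ (D.F.lift (j + 1) j _ (pv D β) (dgp β) ξ +
    D.F.bilH j (j + 1) _ _ _ j (fun _ => ContinuousLinearMap.flip opL) v.2 ξ) y = _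
  rw [val_add, Pi.add_apply, val_dgp h hβ (by omega), val_bilH (p := pv D β) (q := β.m.pg)
    (r := pv D β) (β := fun _ => ContinuousLinearMap.flip opL) (hS h) (Lev.right (by omega) j.le_succ)
    (by omega) (Cb_const _) fun y φ ξ h1 h2 => m_dgp h hβ h2 h1, sv, map_add]
  rfl

end pts

end Crest.Agent.X212.Cgr76
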