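import Crest.Agent.X212.Cgr76.Y

/-! Morphisms of the models on `Y`. -/

set_option autoImplicit false
set_option linter.unusedSectionVars false
noncomputable section
open scoped Manifold ContDiff Topology InnerProductSpace
open MeasureTheory Set Function Filter

namespace Crest.Agent.X212.Cgr76
open An An.Pre Sob92 Wz78 Std94 Cyf70 Nd18 Crt72 Grp76
open Eqv71 (ME BE Itw cj)

section lin
variable {E : Type} [NormedAddCommGroup E] [NormedSpace ℝ E] [FiniteDimensional ℝ E]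
  [MeasurableSpace E] [BorelSpace E]
  {HM : Type} [TopologicalSpace HM] {I : ModelWithCorners ℝ E HM}
  {M : Type} [TopologicalSpace M] [ChartedSpace HM M] [IsManifold I ∞ M]
  [MeasurableSpace M] {ι : Type} [Fintype ι] {lam : Type} [Fintype lam]
  {B : Base M ι lam} {G : Geo I M ι lam} {r : ℕ} {c c' : Cfg M ι lam r}

/-- parallel lines are transported by isomorphisms -/
theorem lin_of_iso (hB : B.OK I) (hG : G.OK B) (h : c.Adm B G) (h' : c'.Adm B G)
    (e : Cfg.Iso B G.F c c') (l : Lin G.F c univ) : Lin G.F c' univ := by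
  obtain ⟨u, ζ, e⟩ := e
  obtain ⟨π, sπ, hπ⟩ := l
  have k := (Eqv71.lg_refl hB hG isOpen_univ).of_ceq h h' e
  have k' := (Eqv71.lg_refl hB hG isOpen_univ).of_ceq h' h (Eqv71.ceq_symm_id hB hG isOpen_univ h h' e)
  have pb : ∀ {c : Cfg M ι lam r}, c.Adm B G →
      Eqv71.pb id (fun b a x => B.P b a x) (c.m.adW c.W) = c.m.adW c.W := fun h => by
    funext a x
    rw [← (Eqv71.con_adW h.conn).proj a x]
    exact Finset.sum_congr rfl fun b _ => by rw [(hB.pr x).symm a b]; rfl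
  have s0 : ∀ x, SA I π x := fun x => sπ.contMDiffAt univ_mem
  have s1 : ∀ x, SA I (fun y => cj (u y)) x := fun x => Eqv71.sa_cj (k.su x trivial)
  have s2 : ∀ x, SA I (fun y => cj (trn (u y))) x := fun x => Eqv71.sa_cj (k'.su x trivial)
  refine ⟨fun x => cj (u x) ∘L π x ∘L cj (trn (u x)), fun x _ =>
    (Eqv71.sa_comp (s1 x) (Eqv71.sa_comp (s0 x) (s2 x))).contMDiffWithinAt, fun x _ => ?_⟩
  obtain ⟨h1, h2, h3, h4, h5⟩ := hπ x trivial
  have me := k.me x trivial
  have h6 : ∀ a, c.m.pg x (π x a) = π x a := fun a => congrArg (· a) h3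
  have h7 : ∀ a, cj (trn (u x)) (cj (u x) (π x a)) = π x a := fun a => me.trn_cj (h6 a ▸ pg_mem x _)
  refine ⟨fun a b => ?_, ContinuousLinearMap.ext fun a => ?_, ContinuousLinearMap.ext fun a => ?_,
    ?_, fun a => ?_⟩
  · simp only [ContinuousLinearMap.comp_apply]
    rw [Eqv71.inner_cj, h1, real_inner_comm, ← Eqv71.inner_cj, real_inner_comm]
  · simp only [mul_apply_eq_comp, ContinuousLinearMap.comp_apply, h7]
    rw [← mul_apply_eq_comp (π x), h2]
  · simp only [mul_apply_eq_comp, ContinuousLinearMap.comp_apply]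
    exact (me.pg (BE.refl hB x) hB hB h.ok h'.ok _).trans (congrArg _ (h6 _))
  · refine (LinearMap.trace_comp_comm' (cj (trn (u x))).toLinearMap
      (cj (u x) ∘L π x).toLinearMap).trans ?_
    rw [← h4]
    congr 1
    exact LinearMap.ext h7
  · have i1 := k.itw_ad (x := x) trivial a
    have i2 := k'.itw_ad (x := x) trivial a
    rw [pb h'] at i1
    rw [pb h] at i2
    rw [D_def, Eqv71.dv_ccomp (s1 x) (Eqv71.sa_comp (s0 x) (s2 x)), Eqv71.dv_ccomp (s0 x) (s2 x),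
      eq_sub_of_add_eq i1, eq_sub_of_add_eq i2, ← D_def, eq_neg_of_add_eq_zero_left (h5 a)]
    ext1 w
    simp only [ContinuousLinearMap.comp_apply, _root_.add_apply, _root_.sub_apply, _root_.neg_apply,
      mul_apply_eq_comp, map_sub, map_neg, map_add, ContinuousLinearMap.zero_apply]
    abel

end lin

variable {E3 : Type} [NormedAddCommGroup E3] [NormedSpace ℝ E3] [FiniteDimensional ℝ E3]
  [MeasurableSpace E3] [BorelSpace E3]
  {H3 : Type} [TopologicalSpace H3] {I3 : ModelWithCorners ℝ E3 H3} [I3.Boundaryless]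
  {Y : Type} [TopologicalSpace Y] [ChartedSpace H3 Y] [IsManifold I3 ∞ Y] [T2Space Y]
  [MeasurableSpace Y] [BorelSpace Y] [SecondCountableTopology Y] [CompactSpace Y]
  {κ : Type} [Fintype κ] {lam : Type} [Fintype lam] {D : YD I3 Y κ lam} {β β' : YC Y κ lam}
  {w : Y → CL β.m.V β'.m.V} {ζ : Circle}

variable (D β β') in
/-- isomorphisms of the modules at a point -/
abbrev MY (y : Y) (w : CL β.m.V β'.m.V) : Prop :=
  ME β.m y β'.m y (fun b a => (B3 D).P b a y) ((B3 D).l y) w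

theorem sum_PW (h : D.OK) (hβ : D.Adm β) (a : Option κ) (x : Y × ℝ) :
    ∑ b, D.B.P b a x • (cy β).W b x = β.W a x.1 := by
  simp only [(h.B.pr x).symm _ a]
  exact hβ.adm.conn.cc.proj a x

theorem par_iff (h : D.OK) (hβ' : D.Adm β') : Par D.Z (cy β).W (cy β').W univ id
    (fun x b a => D.B.P b a x) (fun x => w x.1) ↔ ∀ (x : Y × ℝ) a,
      D.Z.D a (fun x => w x.1) x + β'.W a x.1 ∘L w x.1 = w x.1 ∘L β.W a x.1 :=
  forall_congr' fun x => ⟨fun e a => by
    rw [← sum_PW h hβ', ← sub_eq_zero]; exact e trivial a, fun e _ a => by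
    have := e a
    rw [← sum_PW h hβ', ← sub_eq_zero] at this; exact this⟩

theorem yiso_iff (h : D.OK) (hβ : D.Adm β) (hβ' : D.Adm β') : YIso D β β' w ζ ↔ Sm I3 w ∧
    (∀ y, MY D β β' y (w y)) ∧ (∀ y, Itw I3 D.F.e (cn β) (cn β') w y) ∧
    ∀ y, β'.Φ y = cs β'.m.J ζ (w y (β.Φ y)) := by
  constructor
  · intro e
    have s : Sm I3 w := sm_sl (contMDiffOn_univ.1 e.m.su)
    refine ⟨s, fun y => ?_, fun y a => ?_, fun y => e.Φ (y, 0) trivial⟩
    · have := Eqv71.me_of_meq e.m (x := (y, 0)) trivial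
      exact ⟨this.uu, this.uu', this.J, this.ρ, this.j⟩
    · have := (par_iff h hβ').1 e.W (y, 0) (some a)
      rwa [show D.Z.D (some a) _ = _ from D_some_fst D.F.toPre s a] at this
  · rintro ⟨s, h1, h2, h3⟩
    refine ⟨⟨(sm_fst s).contMDiffOn, fun x _ => (h1 x.1).uu, fun x _ => (h1 x.1).uu',
      fun x _ => (h1 x.1).J, fun x _ b => ?_, fun x _ => (h1 x.1).j⟩,
      (par_iff h hβ').2 fun x a => ?_, fun x _ => h3 x.1, Subsingleton.elim _ _⟩
    · simp only [P_t]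
      exact (h1 x.1).ρ b
    · cases a with
      | none =>
        rw [show D.Z.D none _ = _ from D_none_fst D.F.toPre s, hβ'.tmp, hβ.tmp]
        simp
      | some a =>
        rw [show D.Z.D (some a) _ = _ from D_some_fst D.F.toPre s a]
        exact h2 x.1 a

section my
variable {y : Y} {w : CL β.m.V β'.m.V} (e : MY D β β' y w)
include e

theorem cj_comp (hβ : D.Adm β) {ξ : β.m.A} (hξ : ξ ∈ β.m.gS y) : opL (cj w ξ) ∘L w = w ∘L opL ξ := by
  rw [Eqv71.opL_cj, ContinuousLinearMap.comp_assoc, ContinuousLinearMap.comp_assoc, e.uu]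
  exact congrArg _ (g_p' (mok hβ) hξ)

theorem eq_cj (hβ' : D.Adm β') {ξ : β.m.A} {ξ' : β'.m.A} (hξ : ξ' ∈ β'.m.gS y)
    (h : opL ξ' ∘L w = w ∘L opL ξ) : ξ' = cj w ξ := opL_inj (by
  rw [Eqv71.opL_cj, ← ContinuousLinearMap.comp_assoc, ← h, ContinuousLinearMap.comp_assoc, e.uu']
  exact (g_p' (mok hβ') hξ).symm)

variable (h : D.OK) (hβ : D.Adm β) (hβ' : D.Adm β')
include h hβ hβ'

theorem my_mem {ξ : β.m.A} (hξ : ξ ∈ β.m.gS y) : cj w ξ ∈ β'.m.gS y :=
  e.cj_mem (BE.refl (ok3 h) y) (mok hβ) (mok hβ') hξ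

theorem my_pc (α : Fm κ β.m.A) (α' : Fm κ β'.m.A) (hα : ∀ a, α' a = cj w (α a)) (a : κ) :
    pc D β' y α' a = cj w (pc D β y α a) := by
  simp only [pc, Eqv71.idx_apply, hα, map_sum, map_smul,
    e.pg (BE.refl (ok3 h) y) (ok3 h) (ok3 h) (mok hβ) (mok hβ')]

theorem my_pv (c : ℂ) (φ : β.m.V) :
    pv D β' y (cs β'.m.J c (w φ)) = cs β'.m.J c (w (pv D β y φ)) := by
  rw [e.cs, pv_eq, e.pp (BE.refl (ok3 h) y) (ok3 h) (ok3 h) (mok hβ), e.cs]
  exact congrArg w (Eqv71.map_cs (J_pp (pmx (mok hβ) y)).symm c φ)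

omit h hβ in
theorem my_inner (ζ : Circle) (a : β.m.V) {b : β.m.V} (hb : β.m.p y b = b) :
    ⟪cs β'.m.J ζ (w a), cs β'.m.J ζ (w b)⟫_ℝ = ⟪a, b⟫_ℝ :=
  ((e.phase (mok hβ') ζ).inner a b).trans (by rw [hb])

theorem my_symm : MY D β' β y (trn w) := by
  have := e.symm (BE.refl (ok3 h) y) (mok hβ) (mok hβ')
  rw [Eqv71.trn_of_sym ((ok3 h).lsym y)] at this
  simpa only [MY, ((ok3 h).pr y).symm] using this

end my

variable {j : ℕ}

/-- morphisms described by values -/
structure Mo (T : CC D β j → CC D β' j) (w : Y → CL β.m.V β'.m.V) (ζ : Circle) : Prop where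
  md : MDifferentiable I3 𝓘(ℝ, CL β.m.V β'.m.V) w
  me : ∀ y, MY D β β' y (w y)
  itw : ∀ v y, Itw I3 D.F.e (cv D β v) (cv D β' (T v)) w y
  sp : ∀ v y, sv D β' (T v) y = cs β'.m.J ζ (w y (sv D β v y))

namespace Mo
variable {T : CC D β j → CC D β' j} (m : Mo T w ζ) (h : HY D) (hβ : D.Adm β) (hβ' : D.Adm β')
include m h

theorem yiso (hj : 4 ≤ j) (hw : Sm I3 w) {y : SP D β} {y' : SP D β'} (a : D.Adm (cf y))
    (a' : D.Adm (cf y')) (e : T (pt D β j y) = pt D β' j y') : YIso D (cf y) (cf y') w ζ :=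
  (yiso_iff h.ok a a').2 ⟨hw, m.me, fun x => by
    rw [← cv_pt h hj, ← cv_pt h hj, ← e]; exact m.itw _ x, fun x => by
    rw [← sv_pt h hj, ← sv_pt h hj, ← e]; exact m.sp _ x⟩

include hβ' in
theorem A1 (hj : 4 ≤ j) (v u : CC D β j) (y : Y) (a : κ) :
    D.F.val _ _ (T (v + u) - T v).1 y a = cj (w y) (D.F.val _ _ u.1 y a) := by
  refine eq_cj (m.me y) hβ' (pc_mem (val_proj (hS h) hj _ y) a) ?_
  have h1 := m.itw (v + u) y a
  have h2 := m.itw v y a
  simp only [cv, Prod.fst_add, Prod.fst_sub, val_add, val_sub, Pi.add_apply, Pi.sub_apply,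
    PiLp.add_apply, PiLp.sub_apply, map_add, map_sub, ContinuousLinearMap.add_comp,
    ContinuousLinearMap.comp_add, ContinuousLinearMap.sub_comp] at h1 h2 ⊢
  linear_combination (norm := abel) h1 - h2

omit h in
theorem A2 (v u : CC D β j) (y : Y) :
    D.F.val _ _ (T (v + u) - T v).2 y = cs β'.m.J ζ (w y (D.F.val _ _ u.2 y)) := by
  have h1 := m.sp (v + u) y
  have h2 := m.sp v y
  simp only [sv, Prod.snd_add, Prod.snd_sub, val_add, val_sub, Pi.add_apply, Pi.sub_apply,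
    ← Eqv71.csL_apply, map_add] at h1 h2 ⊢
  linear_combination (norm := abel) h1 - h2

include hβ hβ'

theorem J (hj : 4 ≤ j) (v : CC D β j) : T (v + jv D β j v) - T v = jv D β' j (T v) := by
  refine cc_ext h hj (fun y a => ?_) fun y => ?_
  · rw [m.A1 h hβ' hj]
    simp [jv, val_zero]
  · rw [m.A2, val_jv2 h hβ hj, val_jv2 h hβ' hj, m.sp, ← (m.me y).J_apply]
    exact (Eqv71.map_cs rfl _ _).symm

theorem d (hj : 7 ≤ j) {η : GG D β (j + 1)} {η' : GG D β' (j + 1)}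
    (e : ∀ y, D.F.val _ _ η' y = cj (w y) (D.F.val _ _ η y)) (v : CC D β j) :
    T (v + Crt72.dv D β j v η) - T v = Crt72.dv D β' j (T v) η' := by
  have h4 : 4 ≤ j := by omega
  have e1 : ∀ y, opL (D.F.val _ _ η' y) ∘L w y = w y ∘L opL (D.F.val _ _ η y) := fun y => by
    rw [e, cj_comp (m.me y) hβ (val_proj (hS h) (by omega) η y ▸ pg_mem y _)]
  refine cc_ext h h4 (fun y a => ?_) fun y => ?_
  · rw [m.A1 h hβ' h4]
    refine (eq_cj (m.me y) hβ' (pc_mem (val_proj (hS h) h4 _ y) a) ?_).symm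
    have d1 := opL.mdifferentiableAt.comp y ((val_DH (hS h) h4 η).1 y)
    have d2 := opL.mdifferentiableAt.comp y ((val_DH (hS h) h4 η').1 y)
    have h1 := dv_bil (e := D.F.e a) (ContinuousLinearMap.compL ℝ _ _ _) d2 (m.md y)
    have h2 := dv_bil (e := D.F.e a) (ContinuousLinearMap.compL ℝ _ _ _) (m.md y) d1
    simp only [ContinuousLinearMap.compL_apply, comp_def] at h1 h2
    rw [funext e1, h2, dv_clm opL ((val_DH (hS h) h4 η).1 y), dv_clm opL ((val_DH (hS h) h4 η').1 y),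
      eq_sub_of_add_eq (m.itw v y a)] at h1
    have h3 : ∀ s, opL (D.F.val _ _ η' y) (w y s) = w y (opL (D.F.val _ _ η y) s) :=
      fun s => congrArg (· s) (e1 y)
    rw [val_dv1 h hβ hj, val_dv1 h hβ' hj]
    ext1 s
    have h4 := congrArg (· s) h1
    simp only [nab, map_neg, map_add, opL_adc, ContinuousLinearMap.comp_apply, _root_.add_apply,
      _root_.sub_apply, _root_.neg_apply, mul_apply_eq_comp, map_sub, h3] at h4 ⊢
    linear_combination (norm := abel) h4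
  · rw [m.A2, val_dv2 h hβ hj, val_dv2 h hβ' hj, m.sp, Eqv71.map_cs (J := β'.m.J) (J' := β'.m.J)
      (g_J (val_proj (hS h) (by omega) η' y ▸ pg_mem y _)).symm]
    exact congrArg _ (DFunLike.congr_fun (e1 y) _).symm

end Mo

/-! ### invariance -/

variable {k : ℕ}

/-- the invariants are preserved at `v` -/
structure Iv (T : CC D β (k + 1) → CC D β' (k + 1)) (ζ : Circle) (v : CC D β (k + 1)) : Prop where
  F0 : ∀ u, bb D β' k (k + 1) (mT D β' (YF.z0 D) (k + 1) k (T v)) (T (v + u) - T v) =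
    bb D β k (k + 1) (mT D β (YF.z0 D) (k + 1) k v) u
  cy : ∀ j, mf D β' (yf D (.cy j)) (k + 1) (T v) = mf D β (yf D (.cy j)) (k + 1) v
  sw : ∀ j, mf D β' (yf D (.sw j)) (k + 1) (T v) = mf D β (yf D (.sw j)) (k + 1) v
  s : ∀ j, (⟨mf D β' (yf D (.re j)) (k + 1) (T v), mf D β' (yf D (.im j)) (k + 1) (T v)⟩ : ℂ) =
    (ζ : ℂ) ^ 2 * ⟨mf D β (yf D (.re j)) (k + 1) v, mf D β (yf D (.im j)) (k + 1) v⟩

variable (D) in
/-- the hypotheses of `GrpStmt` -/
structure Hy : Prop extends HY D where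
  av : AdmV D
  nat : Crt72.Nat D
  natc : NatC D
  op : Op3 D
  sm : ∀ j, Sm1 D j

namespace Hy
variable (h : Hy D) (hβ : D.Adm β) (hk : 7 ≤ k)
include h hβ hk

theorem rT : RpT D β (YF.z0 D) (k + 1) k (mT D β (YF.z0 D) (k + 1) k) :=
  Classical.epsilon_spec ((h.op β hβ).2 k hk)

theorem rf (i : BB D) : Rpf D β (yf D i) (k + 1) (mf D β (yf D i) (k + 1)) :=
  Classical.epsilon_spec ((h.sm i).f β hβ k hk)

variable (hβ' : D.Adm β')
include hβ'

theorem closed {X : Type} [TopologicalSpace X] {T : X → CC D β (k + 1) → CC D β' (k + 1)}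
    (hT : Continuous (uncurry T)) {ζ : X → Circle} (hζ : Continuous ζ) {v : X → CC D β (k + 1)}
    (hv : Continuous v) : IsClosed {a | Iv (T a) (ζ a) (v a)} := by
  have h1 : Continuous fun a => T a (v a) := hT.comp (continuous_id.prodMk hv)
  have h2 : ∀ u, Continuous fun a => T a (v a + u) := fun u =>
    hT.comp (continuous_id.prodMk (hv.add continuous_const))
  have c1 := fun i => (h.rf hβ hk i).1.comp hv
  have c2 := fun i => (h.rf hβ' hk i).1.comp h1
  have mk : ∀ {f g : X → ℝ}, Continuous f → Continuous g → Continuous fun a => (⟨f a, g a⟩ : ℂ) :=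
    fun hf hg => Complex.equivRealProdCLM.symm.continuous.comp (hf.prodMk hg)
  have := (isClosed_iInter fun u => isClosed_eq (((bb D β' k (k + 1)).continuous.comp
    ((h.rT hβ' hk).1.continuous.comp h1)).clm_apply ((h2 u).sub h1))
    (((bb D β k (k + 1)).continuous.comp ((h.rT hβ hk).1.continuous.comp hv)).clm_apply
      (continuous_const (y := u)))).inter
    ((isClosed_iInter fun j => isClosed_eq (c2 (.cy j)) (c1 (.cy j))).inter
    ((isClosed_iInter fun j => isClosed_eq (c2 (.sw j)) (c1 (.sw j))).inter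
    (isClosed_iInter fun j => isClosed_eq (mk (c2 (.re j)) (c2 (.im j)))
      (((continuous_subtype_val.comp hζ).pow 2).mul (mk (c1 (.re j)) (c1 (.im j)))))))
  convert this using 1
  ext a
  simp only [mem_inter_iff, mem_iInter, mem_setOf_eq]
  exact ⟨fun i => ⟨i.1, i.2, i.3, i.4⟩, fun i => ⟨i.1, i.2.1, i.2.2.1, i.2.2.2⟩⟩

theorem iv_pt {T : CC D β (k + 1) → CC D β' (k + 1)} (m : Mo T w ζ) (hw : Sm I3 w) {y : SP D β}
    {y' : SP D β'} (e : T (pt D β _ y) = pt D β' _ y') : Iv T ζ (pt D β _ y) := by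
  have a := h.av β hβ y
  have a' := h.av β' hβ' y'
  have i := m.yiso h.toHY (by omega) hw a a' e
  refine ⟨fun u => ?_, fun j => ?_, fun j => ?_, fun j => ?_⟩
  · rw [bb_eq h.toHY (by omega) (by omega), bb_eq h.toHY (by omega) (by omega)]
    congr 2 <;> funext x
    · rw [PiLp.inner_apply, PiLp.inner_apply]
      refine Finset.sum_congr rfl fun b _ => ?_
      rw [m.A1 h.toHY hβ' (by omega), e, ((h.rT hβ' hk).2 y' x).1, ((h.rT hβ hk).2 y x).1,
        my_pc (m.me x) h.ok hβ hβ' _ _ (h.nat.A (cf y) (cf y') w ζ a a' i x),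
        (m.me x).inner_cj _ (pc_mem (val_proj (hS h.toHY) (by omega) _ x) b)]
    · rw [m.A2, e, ((h.rT hβ' hk).2 y' x).2, ((h.rT hβ hk).2 y x).2,
        h.nat.P (cf y) (cf y') w ζ a a' i x]
      exact (congrArg (⟪·, _⟫_ℝ) (my_pv (m.me x) h.ok hβ hβ' _ _)).trans
        (my_inner (m.me x) hβ' ζ _ (p_pv hβ (val_proj (hS h.toHY) (by omega) _ x)))
  · rw [e, (h.rf hβ hk _).2, (h.rf hβ' hk _).2, h.natc (cf y) (cf y') w ζ a a' i]
  · rw [e, (h.rf hβ hk _).2, (h.rf hβ' hk _).2, h.nat.sw (cf y) (cf y') w ζ a a' i]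
  · rw [e, (h.rf hβ hk _).2, (h.rf hβ' hk _).2, (h.rf hβ hk _).2, (h.rf hβ' hk _).2,
      h.nat.s (cf y) (cf y') w ζ a a' i]

end Hy

end Crest.Agent.X212.Cgr76
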