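import Crest.Agent.X212.Cgr76.Mo

/-! Change of the base point. -/

set_option autoImplicit false
set_option linter.unusedSectionVars false
noncomputable section
open scoped Manifold ContDiff Topology InnerProductSpace
open MeasureTheory Set Function Filter

namespace Crest.Agent.X212.Cgr76
open An An.Pre Sob92 Wz78 Std94 Cyf70 Nd18 Crt72 Grp76
open Eqv71 (ME BE Itw cj csL)

variable {E3 : Type} [NormedAddCommGroup E3] [NormedSpace ℝ E3] [FiniteDimensional ℝ E3]
  [MeasurableSpace E3] [BorelSpace E3]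
  {H3 : Type} [TopologicalSpace H3] {I3 : ModelWithCorners ℝ E3 H3} [I3.Boundaryless]
  {Y : Type} [TopologicalSpace Y] [ChartedSpace H3 Y] [IsManifold I3 ∞ Y] [T2Space Y]
  [MeasurableSpace Y] [BorelSpace Y] [SecondCountableTopology Y] [CompactSpace Y]
  {κ : Type} [Fintype κ] {lam : Type} [Fintype lam] {D : YD I3 Y κ lam} {β β' : YC Y κ lam}
  {w : Y → CL β.m.V β'.m.V} {ζ : Circle} {j k : ℕ}

theorem mor_of (h : HY D) (hβ : D.Adm β) (hβ' : D.Adm β') (hk : 7 ≤ k) (act : ActT D k) (sf : SfT D)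
    {T : CC D β (k + 1) → CC D β' (k + 1)} (m : Mo T w ζ) (A : CC D β (k + 1) ≃L[ℝ] CC D β' (k + 1))
    (hA : ∀ v u, T (v + u) = T v + A u) (iv : ∀ v, Iv T ζ v)
    (ad : ∀ η : GG D β (k + 2), ∃ η' : GG D β' (k + 2), ∀ y,
      D.F.val _ _ η' y = cj (w y) (D.F.val _ _ η y))
    (ad' : ∀ η' : GG D β' (k + 2), ∃ η : GG D β (k + 2), ∀ y,
      D.F.val _ _ η y = cj (trn (w y)) (D.F.val _ _ η' y)) :
    (gm D k act sf).Mor (o := ⟨β, hβ⟩) (o' := ⟨β', hβ'⟩) T A ∧
      (gm D k act sf).Ph (o := ⟨β, hβ⟩) (o' := ⟨β', hβ'⟩) T ((ζ : ℂ) ^ 2) := by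
  have e : ∀ v u, A u = T (v + u) - T v := fun v u => by rw [hA, add_sub_cancel_left]
  refine ⟨⟨hA, fun v u => ?_, fun i v => (iv v).cy i, fun i v => (iv v).sw i,
    fun v => (e v _).trans (m.J h hβ hβ' (by omega) v), fun η => ?_, fun η' => ?_⟩, by simp,
    fun i v => (iv v).s i⟩
  · exact (congrArg _ (e v u)).trans ((iv v).F0 u)
  · obtain ⟨η', h1⟩ := ad η
    exact ⟨η', fun v => (e v _).trans (m.d h hβ hβ' (by omega) h1 v)⟩
  · obtain ⟨η, h1⟩ := ad' η'
    refine ⟨η, fun v => (e v _).trans (m.d h hβ hβ' (by omega) (fun y => ?_) v)⟩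
    have := (my_symm (m.me y) h.ok hβ hβ').trn_cj
      (val_proj (hS h) (show 4 ≤ k + 2 by omega) η' y ▸ pg_mem y _)
    rw [Eqv71.trn_trn] at this
    exact this.symm.trans (congrArg _ (h1 y).symm)

/-! ### change of the base point -/

section rep
variable (D w ζ j) in
/-- the linear map induced by an isomorphism -/
def AL : CC D β j →L[ℝ] CC D β' j :=
  (D.F.mulH j _ _ fun y => tp fun a => cj (w y) ∘L Grp76.pj _ a).prodMap
    (D.F.mulH j _ _ fun y => csL β'.m.J ζ ∘L w y)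

variable (h : HY D) (hβ : D.Adm β) (hβ' : D.Adm β') (hj : 4 ≤ j) (hw : Sm I3 w)
  (me : ∀ y, MY D β β' y (w y))
include h hβ hβ' hj hw me

theorem val_AL1 (u : CC D β j) (y : Y) (a : κ) :
    D.F.val _ _ (AL D w ζ j u).1 y a = cj (w y) (D.F.val _ _ u.1 y a) :=
  congrArg (· a) (val_mulH (p := pc D β) (q := pc D β') (hS h) hj
    (Cb_tp fun a => Cb_comp (Cb_of_compact fun y => Eqv71.sa_cj (hw y)) (Cb_const _))
    (fun y α e => PiLp.ext fun a => by
      rw [my_pc (me y) h.ok hβ hβ' α _ (fun _ => rfl), e]; rfl) u.1 y)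

theorem val_AL2 (u : CC D β j) (y : Y) :
    D.F.val _ _ (AL D w ζ j u).2 y = cs β'.m.J ζ (w y (D.F.val _ _ u.2 y)) :=
  val_mulH (p := pv D β) (q := pv D β') (f := fun y => csL β'.m.J ζ ∘L w y) (hS h) hj
    (Cb_comp (Cb_const _) (Cb_of_compact hw))
    (fun y φ e => (my_pv (me y) h.ok hβ hβ' ζ φ).trans (by rw [e]; rfl)) u.2 y

theorem AL_AL (u : CC D β j) : AL D (fun y => trn (w y)) ζ⁻¹ j (AL D w ζ j u) = u := by
  have hw' : Sm I3 fun y => trn (w y) := fun y => Eqv71.sa_trn (hw y)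
  have me' := fun y => my_symm (me y) h.ok hβ hβ'
  refine cc_ext h hj (fun y a => ?_) fun y => ?_
  · rw [val_AL1 h hβ' hβ hj hw' me', val_AL1 h hβ hβ' hj hw me,
      (me y).trn_cj (pc_mem (val_proj (hS h) hj _ y) a)]
  · rw [val_AL2 h hβ' hβ hj hw' me', val_AL2 h hβ hβ' hj hw me, ← (me' y).cs,
      Eqv71.cs_mul (mok hβ).Jsq, ← Circle.coe_mul, inv_mul_cancel, Circle.coe_one, Eqv71.cs_one,
      ← ContinuousLinearMap.comp_apply, (me y).uu, p_pv hβ (val_proj (hS h) hj _ y)]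

theorem exists_ad (η : GG D β j) : ∃ η' : GG D β' j, ∀ y,
    D.F.val _ _ η' y = cj (w y) (D.F.val _ _ η y) :=
  ⟨_, val_mulH (p := β.m.pg) (q := β'.m.pg) (hS h) hj (Cb_of_compact fun y => Eqv71.sa_cj (hw y))
    (fun y ξ e => pg_of_mem (my_mem (me y) h.ok hβ hβ' (e ▸ pg_mem y ξ))) η⟩

end rep

theorem Hy.rep (h : Hy D) {x o : YC Y κ lam} (hx : D.Adm x) (ho : D.Adm o) (hk : 7 ≤ k)
    (act : ActT D k) (sf : SfT D) (y : SP D o) (e : D.Eqv x (cf y)) :
    ∃ T A c, (gm D k act sf).Mor (o := ⟨x, hx⟩) (o' := ⟨o, ho⟩) T A ∧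
      (gm D k act sf).Ph (o := ⟨x, hx⟩) (o' := ⟨o, ho⟩) T c ∧ T 0 = pt D o (k + 1) y := by
  obtain ⟨w, ζ, i⟩ : ∃ (w : Y → CL x.m.V o.m.V) (ζ : Circle), YIso D x (cf y) w ζ :=
    h.nat.eqv x (cf y) hx (h.av o ho y) e
  obtain ⟨hw, me, h1, h2⟩ := (yiso_iff h.ok hx (h.av o ho y)).1 i
  replace me : ∀ z, MY D x o z (w z) := me
  replace hw : Sm I3 w := hw
  have hj : 4 ≤ k + 1 := by omega
  have hw' : Sm I3 fun y => trn (w y) := fun y => Eqv71.sa_trn (hw y)
  have me' := fun y => my_symm (me y) h.ok hx ho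
  have v1 := val_AL1 (β' := o) (ζ := ζ) h.toHY hx ho hj hw me
  have v2 := val_AL2 (β' := o) (ζ := ζ) h.toHY hx ho hj hw me
  let T : CC D x (k + 1) → CC D o (k + 1) := fun u => pt D o (k + 1) y + AL (β' := o) D w ζ _ u
  have m : Mo (β' := o) T w ζ := ⟨hw.mdifferentiable (by simp), me, fun v z a => by
    have h3 : Sob92.dv I3 (D.F.e a) w z + (cn o a z + opL (y.1.1 z a)) ∘L w z = w z ∘L cn x a z :=
      h1 z a
    have h4 := cj_comp (me z) hx (pc_mem (val_proj (hS h.toHY) hj v.1 z) a)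
    simp only [T, cv, Prod.fst_add, val_add, Pi.add_apply, PiLp.add_apply, map_add, v1,
      val_pt1 h.toHY hj, ContinuousLinearMap.add_comp, ContinuousLinearMap.comp_add] at h3 ⊢
    linear_combination (norm := abel) h3 + h4, fun v z => by
    have h3 : o.Φ z + y.2.1 z = cs o.m.J ζ (w z (x.Φ z)) := h2 z
    simp only [T, sv, Prod.snd_add, val_add, Pi.add_apply, v2, val_pt2 h.toHY hj, ← add_assoc, h3,
      ← Eqv71.csL_apply, map_add]⟩
  have hT : Continuous T := by fun_prop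
  obtain ⟨h3, h4⟩ := mor_of h.toHY hx ho hk act sf m (.equivOfInverse (AL (β' := o) D w ζ _)
    (AL (β := o) D (fun y => trn (w y)) ζ⁻¹ _) (AL_AL h.toHY hx ho hj hw me) fun u => by
      simpa only [Eqv71.trn_trn, inv_inv] using AL_AL (ζ := ζ⁻¹) h.toHY ho hx hj hw' me' u)
    (fun v u => by simp [T, add_assoc])
    (fun v => dense_pt.induction_on v (h.closed hx hk ho (T := fun _ => T) (hT.comp continuous_snd)
      continuous_const continuous_id) fun z => by
      obtain ⟨z', hz⟩ := exists_pt h.toHY hj (v := AL (β' := o) D w ζ _ (pt D x _ z))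
        (sm_fm fun a => by
          simp only [v1, val_pt1 h.toHY hj]
          exact ContMDiff.clm_apply (fun y => Eqv71.sa_cj (hw y))
            ((Grp76.pj _ a).contMDiff.comp z.1.2.1))
        (by
          rw [funext (v2 _), val_pt2 h.toHY hj]
          exact (csL o.m.J ζ).contMDiff.comp (hw.clm_apply z.2.2.1))
      exact h.iv_pt hx hk ho m hw (y' := y + z') (by rw [map_add, hz]))
    (exists_ad h.toHY hx ho (by omega) hw me) (exists_ad h.toHY ho hx (by omega) hw' me')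
  exact ⟨T, _, _, h3, h4, (congrArg _ (map_zero _)).trans (add_zero _)⟩

end Crest.Agent.X212.Cgr76
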